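import Vale.Agent.P284Y.Lib.Dg

/-!
# P277, block NEG: the maximum principle on the fibres of a proper map
-/

open scoped Topology ContDiff
open Filter Set Metric Real

noncomputable section

namespace Vale.Agent.P277Z.Neg

open Vale.Agent.P284Z Vale.Agent.P284Y.Lib

/-- the mean values of `u` on small circles are at least `u 0 + c r²`, up to `o(r²)` -/
structure Up (u : ℂ → ℝ) (c : ℝ) : Prop where
  cont : ∀ᶠ ζ in 𝓝 (0 : ℂ), ContinuousAt u ζ
  avg : ∀ η > (0 : ℝ), ∀ᶠ r in 𝓝[>] (0 : ℝ), u 0 + (c - η) * r ^ 2 ≤ circleAverage u 0 r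

variable {u v : ℂ → ℝ} {c c' : ℝ}

theorem ev_circ {p : ℂ → Prop} (h : ∀ᶠ ζ in 𝓝 (0 : ℂ), p ζ) :
    ∀ᶠ r in 𝓝[>] (0 : ℝ), ∀ ζ ∈ sphere (0 : ℂ) |r|, p ζ :=
  (F0.ev_sub h).mono fun _ hr _ hζ => hr (sphere_subset_closedBall hζ)

theorem ev_int (h : ∀ᶠ ζ in 𝓝 (0 : ℂ), ContinuousAt u ζ) :
    ∀ᶠ r in 𝓝[>] (0 : ℝ), CircleIntegrable u 0 r :=
  (ev_circ h).mono fun _ hr => ContinuousOn.circleIntegrable'
    fun ζ hζ => (hr ζ hζ).continuousWithinAt

theorem Up.mono (h : Up u c) (hc : c' ≤ c) : Up u c' :=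
  ⟨h.cont, fun η hη => (h.avg η hη).mono fun r hr => by nlinarith [sq_nonneg r]⟩

theorem Up.add (h : Up u c) (h' : Up v c') : Up (fun ζ => u ζ + v ζ) (c + c') := by
  refine ⟨(h.cont.and h'.cont).mono fun _ k => k.1.add k.2, fun η hη => ?_⟩
  filter_upwards [h.avg (η / 2) (by positivity), h'.avg (η / 2) (by positivity), ev_int h.cont,
    ev_int h'.cont] with r h1 h2 h3 h4
  rw [circleAverage_fun_add h3 h4]
  linarith

theorem Up.smul (h : Up u c) {t : ℝ} (ht : 0 ≤ t) : Up (fun ζ => t * u ζ) (t * c) := by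
  refine ⟨h.cont.mono fun _ k => continuousAt_const.mul k, fun η hη => ?_⟩
  filter_upwards [h.avg (η / (t + 1)) (by positivity)] with r h1
  have e : circleAverage (fun ζ => t * u ζ) 0 r = t * circleAverage u 0 r :=
    circleAverage_fun_smul (a := t) (f := u)
  have k : t * (η / (t + 1)) ≤ η := by
    rw [← mul_div_assoc, div_le_iff₀ (by positivity)]
    nlinarith
  rw [e]
  nlinarith [mul_le_mul_of_nonneg_left h1 ht, sq_nonneg r]

theorem Up.of_le (h : Up u c) (hv : ∀ᶠ ζ in 𝓝 (0 : ℂ), ContinuousAt v ζ) (h0 : v 0 ≤ u 0)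
    (h1 : ∀ᶠ ζ in 𝓝 (0 : ℂ), u ζ ≤ v ζ) : Up v c := by
  refine ⟨hv, fun η hη => ?_⟩
  filter_upwards [h.avg η hη, ev_int h.cont, ev_int hv, ev_circ h1] with r k1 k2 k3 k4
  linarith [circleAverage_mono k2 k3 k4]

theorem Up.congr (h : Up u c) (e : ∀ᶠ ζ in 𝓝 (0 : ℂ), v ζ = u ζ) : Up v c :=
  h.of_le ((h.cont.and e.eventually_nhds).mono fun _ k => k.1.congr (EventuallyEq.symm k.2))
    e.self_of_nhds.le (e.mono fun _ k => k.ge)

theorem up_of_C2 (hu : ContDiffAt ℝ 2 u 0) : Up u (levi u 0 1 / 4) := by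
  refine ⟨(hu.eventually (by simp)).mono fun _ k => k.continuousAt, fun η hη => ?_⟩
  filter_upwards [avg_taylor hu 1 hη] with r hr
  simp only [zero_add, smul_eq_mul, mul_one] at hr
  linarith [(abs_le.1 hr).1]

theorem Up.not_max (h : Up u c) (hc : 0 < c) : ¬ IsLocalMax u 0 := fun hm => by
  obtain ⟨r, ⟨⟨h1, h2⟩, h3⟩, h4⟩ := ((((h.avg (c / 2) (by positivity)).and (ev_int h.cont)).and
    (ev_circ hm)).and self_mem_nhdsWithin).exists
  have := circleAverage_mono_on_of_le_circle h2 h3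
  have h5 : 0 < r ^ 2 := pow_pos h4 2
  nlinarith

section comp

variable {V : Type} [NormedAddCommGroup V] [NormedSpace ℝ V] [NormedSpace ℂ V]
  [IsScalarTower ℝ ℂ V] [CompleteSpace V]

/-- a function of class `C²` along a holomorphic disc -/
theorem up_comp {f : V → ℝ} {γ : ℂ → V} (hγ : AnalyticAt ℂ γ 0) (hf : ContDiffAt ℝ 2 f (γ 0)) :
    Up (fun ζ => f (γ ζ)) (levi f (γ 0) (deriv γ 0) / 4) := by
  have := up_of_C2 (u := fun ζ => f (γ ζ))
    (hf.comp 0 ((hγ.contDiffAt (n := 2)).restrict_scalars ℝ))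
  rwa [levi_hol hγ hf] at this

theorem up_re {g : ℂ → ℂ} (hg : AnalyticAt ℂ g 0) : Up (fun ζ => (g ζ).re) 0 := by
  have := up_of_C2 (u := fun ζ => (g ζ).re) (Complex.reCLM.contDiff.contDiffAt.comp 0
    ((hg.contDiffAt (n := 2)).restrict_scalars ℝ))
  rwa [levi_re hg, zero_div] at this

theorem up_const (a : ℝ) : Up (fun _ => a) 0 := by
  simpa using up_re (g := fun _ => (a : ℂ)) analyticAt_const

theorem up_sum {ι : Type} (s : Finset ι) {f : ι → ℂ → ℝ} {b : ι → ℝ} (h : ∀ i ∈ s, Up (f i) (b i)) :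
    Up (fun ζ => ∑ i ∈ s, f i ζ) (∑ i ∈ s, b i) := by
  classical
  induction s using Finset.induction_on with
  | empty => simpa using up_const 0
  | insert a s ha ih =>
    simpa only [Finset.sum_insert ha] using
      (h a (by simp)).add (ih fun i hi => h i (by simp [hi]))

/-- all real multiples of the logarithm of the modulus of a unit -/
theorem up_log {g : ℂ → ℂ} (hg : AnalyticAt ℂ g 0) (h0 : g 0 ≠ 0) (t : ℝ) :
    Up (fun ζ => t * log ‖g ζ‖) 0 := by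
  have h1 : AnalyticAt ℂ (fun ζ => g ζ / g 0) 0 := hg.div analyticAt_const h0
  have h2 : AnalyticAt ℂ (fun ζ => (t : ℂ) * (Complex.log (g ζ / g 0) + (log ‖g 0‖ : ℝ))) 0 :=
    analyticAt_const.mul ((h1.clog (by simp [h0])).add analyticAt_const)
  refine (up_re h2).congr ?_
  filter_upwards [hg.continuousAt.eventually_ne h0] with ζ hζ
  simp only [Complex.re_ofReal_mul, Complex.add_re, Complex.log_re, Complex.ofReal_re, norm_div]
  rw [log_div (norm_ne_zero_iff.2 hζ) (norm_ne_zero_iff.2 h0), sub_add_cancel]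

/-- a continuous plurisubharmonic function along a holomorphic disc -/
theorem up_psh [FiniteDimensional ℂ V] {f : V → ℝ} {N : Set V} {γ : ℂ → V} (hf : Psh f N)
    (hc : ContinuousOn f N) (hγ : AnalyticAt ℂ γ 0) (hN : N ∈ 𝓝 (γ 0)) :
    Up (fun ζ => f (γ ζ)) 0 := by
  have h1 : ∀ᶠ ζ in 𝓝 (0 : ℂ), AnalyticAt ℂ γ ζ ∧ γ ζ ∈ interior N :=
    hγ.eventually_analyticAt.and (hγ.continuousAt.eventually (interior_mem_nhds.2 hN))
  obtain ⟨O, h2, h3, h4⟩ := _root_.eventually_nhds_iff.1 h1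
  have h5 : Psh (fun ζ => f (γ ζ)) O := (hf.mono interior_subset).comp
    (.of_cont (hc.mono interior_subset)) isOpen_interior h3
    (fun ζ hζ => (h2 ζ hζ).1.differentiableAt.differentiableWithinAt) fun ζ hζ => (h2 ζ hζ).2
  refine ⟨h1.mono fun ζ k => (hc.continuousAt (mem_interior_iff_mem_nhds.1 k.2)).comp
    k.1.continuousAt, fun η hη => ?_⟩
  filter_upwards [h5.locSub (h3.mem_nhds h4) 1 η hη] with r hr
  simp only [zero_add, smul_eq_mul, mul_one] at hr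
  linarith

end comp

/-- the sum of the squares of the moduli -/
def nq {ι : Type} [Fintype ι] (a x : ι → ℂ) : ℝ := ∑ i, ‖x i - a i‖ ^ 2

theorem nq_C2 {ι : Type} [Fintype ι] (a x : ι → ℂ) : ContDiffAt ℝ 2 (nq a) x :=
  ContDiffAt.sum fun i _ => ((contDiffAt_apply ℝ ℂ i x).sub contDiffAt_const).norm_sq ℝ

theorem nq_pos {ι : Type} [Fintype ι] {a x : ι → ℂ} (h : x ≠ a) : 0 < nq a x := by
  obtain ⟨i, hi⟩ := Function.ne_iff.1 h
  exact Finset.sum_pos' (fun _ _ => by positivity)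
    ⟨i, Finset.mem_univ i, pow_pos (norm_pos_iff.2 (sub_ne_zero.2 hi)) 2⟩

/-- `γ` is a disc through `z` in `S`, tangent to the fibre of `g`, along which `log P` is strictly
subharmonic -/
structure Disc {W ι : Type} [TopologicalSpace W] [Fintype ι] (S : Set W) (g : W → ι → ℂ)
    (P : W → ℝ) (z : W) (γ : ℂ → W) : Prop where
  zero : γ 0 = z
  cont : ContinuousAt γ 0
  mem : ∀ᶠ ζ in 𝓝 (0 : ℂ), γ ζ ∈ S
  an : AnalyticAt ℂ (fun ζ => g (γ ζ)) 0
  der : deriv (fun ζ => g (γ ζ)) 0 = 0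
  up : ∃ c > (0 : ℝ), Up (fun ζ => log (P (γ ζ))) c

/-- **MAXP** the maximum principle: `ψ` is proper on `S` over `V`, `φ` is injective on `V`. -/
theorem maxp {W Y ι : Type} [TopologicalSpace W] [TopologicalSpace Y] [T2Space Y]
    [LocallyCompactSpace Y] [Fintype ι] {S : Set W} {ψ : W → Y} {V : Set Y} {φ : Y → ι → ℂ}
    {P : W → ℝ} {z₁ : W} (hV : IsOpen V) (hψ : Continuous ψ)
    (hp : ∀ L ⊆ V, IsCompact L → IsCompact (S ∩ ψ ⁻¹' L)) (hφ : ContinuousOn φ V)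
    (hi : ∀ y ∈ V, φ y = φ (ψ z₁) → y = ψ z₁) (hP : ContinuousOn P (S ∩ ψ ⁻¹' V)) (h1 : z₁ ∈ S)
    (h2 : ψ z₁ ∈ V) (h3 : 0 < P z₁)
    (h : ∀ z ∈ S, ψ z ∈ V → 0 < P z → ∃ γ, Disc S (fun w => φ (ψ w)) P z γ) : False := by
  obtain ⟨L, L1, L2, L3⟩ := exists_compact_subset hV h2
  set a := φ (ψ z₁) with ha
  set K := S ∩ ψ ⁻¹' L with hK
  have K1 : IsCompact K := hp L L3 L1
  have K2 : K ⊆ S ∩ ψ ⁻¹' V := fun z hz => ⟨hz.1, L3 hz.2⟩
  have K3 : z₁ ∈ K := ⟨h1, interior_subset (s := L) L2⟩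
  have Qc : ContinuousOn (fun y => nq a (φ y)) V :=
    (continuous_iff_continuousAt.2 fun x => (nq_C2 a x).continuousAt).comp_continuousOn hφ
  obtain ⟨δ, hδ, hδ'⟩ : ∃ δ > (0 : ℝ), ∀ y ∈ L, y ∉ interior L → δ ≤ nq a (φ y) := by
    have c : IsCompact (L \ interior L) := L1.diff isOpen_interior
    rcases (L \ interior L).eq_empty_or_nonempty with e | e
    · exact ⟨1, one_pos, fun y k1 k2 => absurd (show y ∈ L \ interior L from ⟨k1, k2⟩) (by simp [e])⟩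
    · obtain ⟨y, k1, k2⟩ := c.exists_isMinOn e (Qc.mono fun y hy => L3 hy.1)
      exact ⟨_, nq_pos fun k => k1.2 (hi y (L3 k1.1) k ▸ L2), fun y' k3 k4 => k2 ⟨k3, k4⟩⟩
  obtain ⟨b, -, hb⟩ := K1.exists_isMaxOn ⟨_, K3⟩ (hP.mono K2)
  have hb1 : P z₁ ≤ P b := hb K3
  set C := (log (P b) - log (P z₁) + 1) / δ with hC
  have hl : log (P z₁) ≤ log (P b) := log_le_log h3 hb1
  have C0 : 0 ≤ C := div_nonneg (by linarith) hδ.le
  have Qk : ContinuousOn (fun w => nq a (φ (ψ w))) K :=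
    Qc.comp hψ.continuousOn fun w hw => (K2 hw).2
  obtain ⟨z, z1, z2⟩ := K1.exists_isMaxOn (f := fun w => P w * exp (-(C * nq a (φ (ψ w)))))
    ⟨_, K3⟩ ((hP.mono K2).mul (continuousOn_const.mul Qk).neg.rexp)
  have z3 : P z₁ ≤ P z * exp (-(C * nq a (φ (ψ z)))) := by
    have := z2 K3
    simpa [nq, ha] using this
  have z4 : 0 < P z := (pos_iff_pos_of_mul_pos (h3.trans_le z3)).2 (exp_pos _)
  have z5 : ψ z ∈ interior L := by
    by_contra k
    have k1 := mul_le_mul_of_nonneg_left (hδ' _ z1.2 k) C0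
    have k2 : C * δ = log (P b) - log (P z₁) + 1 := div_mul_cancel₀ _ hδ.ne'
    have k3 := log_le_log h3 z3
    rw [log_mul z4.ne' (exp_pos _).ne', log_exp] at k3
    have k4 := log_le_log z4 (show P z ≤ P b from hb z1)
    linarith
  obtain ⟨γ, hγ⟩ := h z z1.1 (K2 z1).2 z4
  obtain ⟨c, c0, hc⟩ := hγ.up
  have u1 := up_comp (f := fun x => -C * nq a x) hγ.an (contDiffAt_const.mul (nq_C2 _ _))
  rw [hγ.der, show levi (fun x => -C * nq a x) (φ (ψ (γ 0))) 0 = 0 by simp [levi]] at u1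
  refine (hc.add u1).not_max (by simpa using c0) ?_
  have e1 : ∀ᶠ ζ in 𝓝 (0 : ℂ), γ ζ ∈ K :=
    (hγ.mem.and ((hψ.continuousAt.comp hγ.cont).eventually
      (show interior L ∈ 𝓝 ((ψ ∘ γ) 0) by
        simpa [hγ.zero] using isOpen_interior.mem_nhds z5))).mono
      fun ζ k => ⟨k.1, interior_subset (s := L) k.2⟩
  have e2 : ∀ᶠ ζ in 𝓝 (0 : ℂ), 0 < P (γ ζ) := by
    have k : Tendsto γ (𝓝 0) (𝓝[K] z) :=
      tendsto_nhdsWithin_iff.2 ⟨hγ.zero ▸ hγ.cont, e1⟩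
    exact ((hP.mono K2 z z1).tendsto.comp k).eventually (lt_mem_nhds z4)
  filter_upwards [e1, e2] with ζ k1 k2
  have k3 := log_le_log (mul_pos k2 (exp_pos _)) (z2 k1)
  rw [log_mul k2.ne' (exp_pos _).ne', log_mul z4.ne' (exp_pos _).ne', log_exp, log_exp] at k3
  simp only [hγ.zero]
  linarith

end Vale.Agent.P277Z.Neg
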